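import Mathlib

-- ▼ part X37/Geo/Defs
section

/-!
X37 (thin trees), geometry: statement of the Steiner-potential CLAIM of Lemma B (note 132)
and the rooted trees used in its proof (helper13).
-/

set_option autoImplicit false

namespace Crest.Agent.X37.Geo

/-- `d` is a pseudo-metric on `V`. -/
structure IsPM {V : Type*} (d : V → V → ℝ) : Prop where
  self : ∀ x, d x x = 0
  symm : ∀ x y, d x y = d y x
  tri : ∀ x y z, d x z ≤ d x y + d y z

theorem IsPM.nonneg {V : Type*} {d : V → V → ℝ} (h : IsPM d) (x y : V) : 0 ≤ d x y := by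
  have h1 := h.tri x y x
  rw [h.self, h.symm y x] at h1
  linarith

/-- number of classes of the partition given by the label map `f` -/
def ncl {V : Type*} [Fintype V] [DecidableEq V] (f : V → V) : ℕ := (Finset.univ.image f).card


/-- rooted trees with vertices labelled by points of `V`; `join s t` hangs the root of `t`
below the root of `s` -/
inductive Tr (V : Type*) where
  | pt (v : V) : Tr V
  | join (s t : Tr V) : Tr V

namespace Tr

variable {V : Type*}

/-- the root -/
def root : Tr V → V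
  | pt v => v
  | join s _ => s.root

/-- membership of a point -/
def Mem (x : V) : Tr V → Prop
  | pt v => x = v
  | join s t => Mem x s ∨ Mem x t

/-- total `f`-length of the edges -/
def cost (f : V → V → ℝ) : Tr V → ℝ
  | pt _ => 0
  | join s t => s.cost f + t.cost f + f s.root t.root

/-- all edges have `d`-length at most `l` -/
def Bdd (d : V → V → ℝ) (l : ℝ) : Tr V → Prop
  | pt _ => True
  | join s t => s.Bdd d l ∧ t.Bdd d l ∧ d s.root t.root ≤ l

end Tr

end Crest.Agent.X37.Geo
private theorem rz_3c584b5e47 : type_of% @_root_.Crest.Agent.X37.Geo.Tr.Mem.eq_def := @_root_.Crest.Agent.X37.Geo.Tr.Mem.eq_def -- L60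
private theorem rz_7da31c528f : type_of% @_root_.Crest.Agent.X37.Geo.Tr.Mem.eq_1 := @_root_.Crest.Agent.X37.Geo.Tr.Mem.eq_1 -- L60
private theorem rz_b6e2384470 : type_of% @_root_.Crest.Agent.X37.Geo.Tr.cost.eq_def := @_root_.Crest.Agent.X37.Geo.Tr.cost.eq_def -- L65
private theorem rz_667d995b2c : type_of% @_root_.Crest.Agent.X37.Geo.Tr.cost.eq_1 := @_root_.Crest.Agent.X37.Geo.Tr.cost.eq_1 -- L65
private theorem rz_92a8999452 : type_of% @_root_.Crest.Agent.X37.Geo.Tr.root.eq_def := @_root_.Crest.Agent.X37.Geo.Tr.root.eq_def -- L55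
private theorem rz_c729c9159f : type_of% @_root_.Crest.Agent.X37.Geo.Tr.root.eq_1 := @_root_.Crest.Agent.X37.Geo.Tr.root.eq_1 -- L55
end

-- ▼ part X37/Geo/Tree

/-!
X37 geometry: basic facts on the rooted trees `Tr` (grafting, re-rooting, linking).
-/

set_option autoImplicit false

namespace Crest.Agent.X37.Geo.Tr

variable {V : Type*}

theorem root_mem (t : Tr V) : t.Mem t.root := by
  induction t with
  | pt v => exact rfl
  | join s t hs _ => exact Or.inl hs

theorem cost_nonneg {f : V → V → ℝ} (hf : ∀ x y, 0 ≤ f x y) (t : Tr V) : 0 ≤ t.cost f := by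
  induction t with
  | pt v => exact le_rfl
  | join s t hs ht =>
    have := hf s.root t.root
    simp only [cost]; linarith

theorem cost_mono {f g : V → V → ℝ} (h : ∀ x y, f x y ≤ g x y) (t : Tr V) :
    t.cost f ≤ t.cost g := by
  induction t with
  | pt v => exact le_rfl
  | join s t hs ht =>
    have := h s.root t.root
    simp only [cost]; linarith

theorem Bdd.mono {d : V → V → ℝ} {l l' : ℝ} (h : l ≤ l') :
    ∀ {t : Tr V}, t.Bdd d l → t.Bdd d l'
  | pt _, _ => trivial
  | join _ _, ⟨h1, h2, h3⟩ => ⟨Bdd.mono h h1, Bdd.mono h h2, h3.trans h⟩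

/-- a pseudo-metric distance from a point to the root is at most the cost -/
theorem dist_root_le {d : V → V → ℝ} (hd : IsPM d) :
    ∀ (t : Tr V) (x : V), t.Mem x → d x t.root ≤ t.cost d
  | pt v, x, h => by
    have h' : x = v := h
    subst h'
    simp [root, cost, hd.self]
  | join s t, x, h => by
    have h1 := cost_nonneg hd.nonneg s
    have h2 := cost_nonneg hd.nonneg t
    have h3 := hd.nonneg s.root t.root
    rcases h with h | h
    · have := dist_root_le hd s x h
      simp only [root, cost]; linarith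
    · have h4 := dist_root_le hd t x h
      have h5 := hd.tri x t.root s.root
      rw [hd.symm t.root s.root] at h5
      simp only [root, cost]; linarith

/-- if the `μ`-cost is positive some edge has positive `μ`-length -/
theorem exists_near {μ : V → V → ℝ} {near : V → Prop}
    (hμ : ∀ x y, 0 < μ x y → near x ∨ near y) :
    ∀ (t : Tr V), 0 < t.cost μ → ∃ x, t.Mem x ∧ near x
  | pt _, h => absurd h (lt_irrefl _)
  | join s t, h => by
    simp only [cost] at h
    by_cases h1 : 0 < s.cost μ
    · obtain ⟨x, hx, hn⟩ := exists_near hμ s h1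
      exact ⟨x, Or.inl hx, hn⟩
    by_cases h2 : 0 < t.cost μ
    · obtain ⟨x, hx, hn⟩ := exists_near hμ t h2
      exact ⟨x, Or.inr hx, hn⟩
    have h3 : 0 < μ s.root t.root := by linarith
    rcases hμ _ _ h3 with h4 | h4
    · exact ⟨_, Or.inl (root_mem s), h4⟩
    · exact ⟨_, Or.inr (root_mem t), h4⟩

/-- hang the root of `t` below a point `x` of `s` -/
theorem graft {d : V → V → ℝ} {l : ℝ} (t : Tr V) (ht : t.Bdd d l) :
    ∀ (s : Tr V) (x : V), s.Mem x → s.Bdd d l → d x t.root ≤ l →
      ∃ u : Tr V, u.root = s.root ∧ (∀ z, u.Mem z ↔ s.Mem z ∨ t.Mem z) ∧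
        u.cost d = s.cost d + t.cost d + d x t.root ∧ u.Bdd d l
  | pt v, x, h, _, hl => by
    have h' : x = v := h
    subst h'
    exact ⟨join (pt x) t, rfl, fun z => Iff.rfl, rfl, trivial, ht, hl⟩
  | join s1 s2, x, h, ⟨b1, b2, b3⟩, hl => by
    rcases h with h | h
    · obtain ⟨u, hu1, hu2, hu3, hu4⟩ := graft t ht s1 x h b1 hl
      refine ⟨join u s2, hu1, fun z => ?_, ?_, hu4, b2, by rwa [hu1]⟩
      · simp only [Mem, hu2]; tauto
      · simp only [cost, hu3, hu1]; ring
    · obtain ⟨u, hu1, hu2, hu3, hu4⟩ := graft t ht s2 x h b2 hl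
      refine ⟨join s1 u, rfl, fun z => ?_, ?_, b1, hu4, by rwa [hu1]⟩
      · simp only [Mem, hu2]; tauto
      · simp only [cost, hu3, hu1]; ring

/-- move the root to any point -/
theorem reroot {d : V → V → ℝ} (hd : IsPM d) {l : ℝ} :
    ∀ (t : Tr V) (y : V), t.Mem y → t.Bdd d l →
      ∃ u : Tr V, u.root = y ∧ (∀ z, u.Mem z ↔ t.Mem z) ∧ u.cost d = t.cost d ∧ u.Bdd d l
  | pt v, y, h, _ => by
    have h' : y = v := h
    subst h'
    exact ⟨pt y, rfl, fun z => Iff.rfl, rfl, trivial⟩
  | join s t, y, h, ⟨b1, b2, b3⟩ => by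
    rcases h with h | h
    · obtain ⟨u, hu1, hu2, hu3, hu4⟩ := reroot hd s y h b1
      obtain ⟨w, hw1, hw2, hw3, hw4⟩ :=
        graft t b2 u s.root ((hu2 _).2 (root_mem s)) hu4 b3
      refine ⟨w, hw1.trans hu1, fun z => ?_, ?_, hw4⟩
      · simp only [Mem, hw2, hu2]
      · simp only [cost, hw3, hu3]
    · obtain ⟨u, hu1, hu2, hu3, hu4⟩ := reroot hd t y h b2
      obtain ⟨w, hw1, hw2, hw3, hw4⟩ :=
        graft s b1 u t.root ((hu2 _).2 (root_mem t)) hu4 (by rwa [hd.symm])
      refine ⟨w, hw1.trans hu1, fun z => ?_, ?_, hw4⟩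
      · simp only [Mem, hw2, hu2]; tauto
      · simp only [cost, hw3, hu3, hd.symm t.root s.root]; ring

/-- join two trees by an edge between arbitrary points -/
theorem link {d : V → V → ℝ} (hd : IsPM d) {l : ℝ} {s t : Tr V} {x y : V} (hx : s.Mem x)
    (hy : t.Mem y) (hs : s.Bdd d l) (ht : t.Bdd d l) (hl : d x y ≤ l) :
    ∃ u : Tr V, (∀ z, u.Mem z ↔ s.Mem z ∨ t.Mem z) ∧
      u.cost d = s.cost d + t.cost d + d x y ∧ u.Bdd d l := by
  obtain ⟨u, hu1, hu2, hu3, hu4⟩ := reroot hd t y hy ht
  obtain ⟨w, _, hw2, hw3, hw4⟩ := graft u hu4 s x hx hs (by rwa [hu1])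
  refine ⟨w, fun z => ?_, ?_, hw4⟩
  · rw [hw2, hu2]
  · rw [hw3, hu3, hu1]

/-- oscillation of a function along a tree -/
theorem sub_root_le (g : V → ℝ) :
    ∀ (t : Tr V) (x : V), t.Mem x → g x - g t.root ≤ t.cost (fun a b => |g a - g b|)
  | pt v, x, h => by
    have h' : x = v := h
    subst h'
    simp [root, cost]
  | join s t, x, h => by
    have h1 := cost_nonneg (f := fun a b => |g a - g b|) (fun _ _ => abs_nonneg _) s
    have h2 := cost_nonneg (f := fun a b => |g a - g b|) (fun _ _ => abs_nonneg _) t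
    have h3 := abs_nonneg (g s.root - g t.root)
    have h4 := neg_abs_le (g s.root - g t.root)
    rcases h with h | h
    · have := sub_root_le g s x h
      simp only [root, cost]; linarith
    · have := sub_root_le g t x h
      simp only [root, cost]; linarith

theorem cost_sum {ι : Type*} (A : Finset ι) (f : ι → V → V → ℝ) (t : Tr V) :
    t.cost (fun a b => ∑ p ∈ A, f p a b) = ∑ p ∈ A, t.cost (f p) := by
  induction t with
  | pt v => simp [cost]
  | join s t hs ht => simp only [cost, hs, ht, Finset.sum_add_distrib]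

end Crest.Agent.X37.Geo.Tr
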